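import Vale.Agent.P231.S3L.Fam
import Vale.Agent.P231.H584.Ops
import Vale.Agent.P231.WA.Deg

/-!
# P231, stage 3, block S3-LL, part 3: the natural connection form of a circle action with enough
equivariant functions

For equivariant functions `F j` without common zero the form
`con F = Im (∑ conj (F j) d (F j)) / (2 π ∑ |F j|²)` is a connection form; it is natural.
-/

set_option linter.unusedSectionVars false
set_option linter.unusedVariables false

open Set Filter Topology Module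
open scoped ContDiff ENNReal

namespace Vale.Agent.P231.S3L

open Vale.Agent.P231.Fm Vale.Agent.P231.H766 Vale.Agent.P231.W

noncomputable section

/-- the sum of the squares -/
def nsq {X : Type*} {J : ℕ} (F : Fin J → X → ℂ) (x : X) : ℝ := ∑ j, ‖F j x‖ ^ 2

theorem nsq_pos {X : Type*} {J : ℕ} {F : Fin J → X → ℂ} {x : X} {δ : ℝ} (hδ : 0 < δ)
    (h : ∃ j, δ ≤ ‖F j x‖) : 0 < nsq F x := by
  obtain ⟨j, hj⟩ := h
  have h1 : ‖F j x‖ ^ 2 ≤ nsq F x :=
    Finset.single_le_sum (f := fun j => ‖F j x‖ ^ 2) (fun j _ => by positivity)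
      (Finset.mem_univ j)
  have h2 : 0 < ‖F j x‖ := hδ.trans_le hj
  exact lt_of_lt_of_le (by positivity) h1

section Cov

variable {E : Type} [NormedAddCommGroup E] [NormedSpace ℝ E] [FiniteDimensional ℝ E] {J : ℕ}

/-- the covector -/
def cov (f : Fin J → E → ℂ) (x : E) : E →L[ℝ] ℝ :=
  (2 * Real.pi * nsq f x)⁻¹ • ∑ j, Complex.imCLM.comp ((starRingEnd ℂ (f j x)) • fderiv ℝ (f j) x)

theorem cov_apply (f : Fin J → E → ℂ) (x w : E) : cov f x w =
    (2 * Real.pi * nsq f x)⁻¹ * ∑ j, (starRingEnd ℂ (f j x) * fderiv ℝ (f j) x w).im := by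
  simp [cov]

theorem cov_congr {f g : Fin J → E → ℂ} {x : E} (h : ∀ j, f j =ᶠ[𝓝 x] g j) :
    cov f x = cov g x := by
  have h1 : ∀ j, f j x = g j x := fun j => (h j).eq_of_nhds
  have h2 : ∀ j, fderiv ℝ (f j) x = fderiv ℝ (g j) x := fun j => (h j).fderiv_eq
  refine ContinuousLinearMap.ext fun w => ?_
  rw [cov_apply, cov_apply]
  simp only [nsq, h1, h2]

theorem cov_smooth {f : Fin J → E → ℂ} {x : E} (h : ∀ j, Sm (f j) x) (h0 : 0 < nsq f x) :
    ContDiffAt ℝ ∞ (cov f) x := by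
  have h1 : ∀ j, ContDiffAt ℝ ∞ (f j) x := fun j => (h j).contDiffAt
  have h2 : ∀ j, ContDiffAt ℝ ∞ (fderiv ℝ (f j)) x := fun j => (h j).fderiv.contDiffAt
  have h3 : ContDiffAt ℝ ∞ (nsq f) x := by
    have : nsq f = fun y => ∑ j, ‖f j y‖ ^ 2 := rfl
    rw [this]
    exact ContDiffAt.sum fun j _ => (h1 j).norm_sq ℝ
  have h4 : ContDiffAt ℝ ∞ (fun y => (2 * Real.pi * nsq f y)⁻¹) x :=
    (contDiffAt_const.mul h3).inv (by positivity)
  refine h4.smul (ContDiffAt.sum fun j _ => ?_)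
  have h5 : ContDiffAt ℝ ∞ (fun y => (starRingEnd ℂ (f j y)) • fderiv ℝ (f j) y) x := by
    have h6 : ContDiffAt ℝ ∞ (fun y => starRingEnd ℂ (f j y)) x :=
      Complex.conjCLE.contDiff.contDiffAt.comp x (h1 j)
    exact h6.smul (h2 j)
  exact contDiffAt_const.clm_comp h5

theorem cov_comp {G : Type} [NormedAddCommGroup G] [NormedSpace ℝ G] [FiniteDimensional ℝ G]
    {f : Fin J → G → ℂ} {g : E → G} {x : E} (h : ∀ j, DifferentiableAt ℝ (f j) (g x))
    (hg : DifferentiableAt ℝ g x) :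
    cov (fun j => f j ∘ g) x = (cov f (g x)).comp (fderiv ℝ g x) := by
  refine ContinuousLinearMap.ext fun w => ?_
  have h1 : ∀ j, fderiv ℝ (f j ∘ g) x = (fderiv ℝ (f j) (g x)).comp (fderiv ℝ g x) :=
    fun j => fderiv_comp x (h j) hg
  rw [ContinuousLinearMap.comp_apply, cov_apply, cov_apply]
  simp only [h1]
  rfl

/-- the covector of the rotated functions -/
theorem cov_rot {f : Fin J → E → ℂ} {τ : E → ℝ} {x : E} (h : ∀ j, DifferentiableAt ℝ (f j) x)
    (hτ : DifferentiableAt ℝ τ x) (h0 : 0 < nsq f x) :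
    cov (fun j y => Complex.exp ((2 * Real.pi * τ y : ℝ) * Complex.I) * f j y) x =
      cov f x + fderiv ℝ τ x := by
  refine ContinuousLinearMap.ext fun w => ?_
  have h1 : HasFDerivAt (fun y => ((2 * Real.pi * τ y : ℝ) : ℂ) * Complex.I)
      ((Complex.ofRealCLM.comp ((2 * Real.pi) • fderiv ℝ τ x)).smulRight Complex.I) x := by
    have h2 : HasFDerivAt (fun y => 2 * Real.pi * τ y) ((2 * Real.pi) • fderiv ℝ τ x) x :=
      hτ.hasFDerivAt.const_mul _
    have h3 := (Complex.ofRealCLM.hasFDerivAt.comp x h2).mul_const Complex.I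
    refine h3.congr_fderiv (ContinuousLinearMap.ext fun w => ?_)
    simp [mul_comm]
  have h4 := h1.cexp
  have h5 : ∀ j, HasFDerivAt (fun y => Complex.exp ((2 * Real.pi * τ y : ℝ) * Complex.I) * f j y)
      _ x := fun j => h4.mul (h j).hasFDerivAt
  have h6 : ∀ j, ‖Complex.exp ((2 * Real.pi * τ x : ℝ) * Complex.I) * f j x‖ = ‖f j x‖ :=
    fun j => by rw [norm_mul, Complex.norm_exp_ofReal_mul_I, one_mul]
  have h7 : nsq (fun j y => Complex.exp ((2 * Real.pi * τ y : ℝ) * Complex.I) * f j y) x =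
      nsq f x := by
    simp only [nsq, h6]
  have h8 : starRingEnd ℂ (Complex.exp ((2 * Real.pi * τ x : ℝ) * Complex.I)) *
      Complex.exp ((2 * Real.pi * τ x : ℝ) * Complex.I) = 1 := by
    rw [← Complex.normSq_eq_conj_mul_self, Complex.normSq_eq_norm_sq,
      Complex.norm_exp_ofReal_mul_I]
    norm_num
  rw [add_apply, cov_apply, cov_apply, h7]
  have h9 : ∀ j, (starRingEnd ℂ (Complex.exp ((2 * Real.pi * τ x : ℝ) * Complex.I) * f j x) *
      fderiv ℝ (fun y => Complex.exp ((2 * Real.pi * τ y : ℝ) * Complex.I) * f j y) x w).im =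
      (starRingEnd ℂ (f j x) * fderiv ℝ (f j) x w).im + 2 * Real.pi * fderiv ℝ τ x w *
        ‖f j x‖ ^ 2 := by
    intro j
    rw [(h5 j).fderiv]
    set ζ := Complex.exp ((2 * Real.pi * τ x : ℝ) * Complex.I) with hζ
    have h10 : starRingEnd ℂ (ζ * f j x) * ((ζ • fderiv ℝ (f j) x + f j x • (ζ •
        (Complex.ofRealCLM.comp ((2 * Real.pi) • fderiv ℝ τ x)).smulRight Complex.I)) w) =
        starRingEnd ℂ (f j x) * fderiv ℝ (f j) x w +
          ((2 * Real.pi * fderiv ℝ τ x w * ‖f j x‖ ^ 2 : ℝ) : ℂ) * Complex.I := by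
      have e1 : (ζ • fderiv ℝ (f j) x + f j x • (ζ •
        (Complex.ofRealCLM.comp ((2 * Real.pi) • fderiv ℝ τ x)).smulRight Complex.I)) w =
        ζ * fderiv ℝ (f j) x w + f j x * (ζ * (((2 * Real.pi * fderiv ℝ τ x w : ℝ) : ℂ) *
          Complex.I)) := by
        simp
      have e2 : starRingEnd ℂ (f j x) * f j x = ((‖f j x‖ ^ 2 : ℝ) : ℂ) := by
        rw [← Complex.normSq_eq_conj_mul_self, Complex.normSq_eq_norm_sq]
      rw [e1, map_mul]
      calc _ = (starRingEnd ℂ ζ * ζ) * (starRingEnd ℂ (f j x) * fderiv ℝ (f j) x w) +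
          (starRingEnd ℂ ζ * ζ) * ((starRingEnd ℂ (f j x) * f j x) *
            (((2 * Real.pi * fderiv ℝ τ x w : ℝ) : ℂ) * Complex.I)) := by ring
        _ = _ := by
          rw [h8, e2]
          push_cast
          ring
    rw [h10, Complex.add_im, Complex.mul_I_im, Complex.ofReal_re]
  simp only [h9]
  rw [Finset.sum_add_distrib, mul_add, ← Finset.mul_sum]
  congr 1
  have h11 : ∑ j, ‖f j x‖ ^ 2 = nsq f x := rfl
  rw [h11]
  have h12 : 2 * Real.pi * nsq f x ≠ 0 := by positivity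
  field_simp

end Cov

/-! ### the connection form -/

section Con

variable {X : Type*} {D : Dif X} {J : ℕ} {F : Fin J → X → ℂ}

/-- the form `Im (∑ conj (F j) d (F j)) / (2 π ∑ |F j|²)` -/
def con (F : Fin J → X → ℂ) (hF : ∀ j, D.Map (Dif.lin ℂ) (F j)) (h0 : ∀ x, 0 < nsq F x) :
    Form D :=
  Form.mk' (fun {E} _ _ _ u x => dx (cov (fun j y => F j (u y)) x))
    (fun {E} _ _ _ {u x} h =>
      (dx (E := E)).contDiff.contDiffAt.comp x (cov_smooth (fun j => hF j h) (h0 (u x))))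
    (fun {E G} _ _ _ _ _ _ {u g x} h hg => by
      rw [pull_dx]
      congr 1
      exact cov_comp (f := fun j y => F j (u y)) (g := g)
        (fun j => Sm.differentiableAt (hF j h)) hg.differentiableAt)
    (fun {E} _ _ _ {u v x} h huv => by
      congr 1
      exact cov_congr fun j => huv.fun_comp (F j))

variable (hF : ∀ j, D.Map (Dif.lin ℂ) (F j)) (h0 : ∀ x, 0 < nsq F x)

theorem con_val {E : Type} [NormedAddCommGroup E] [NormedSpace ℝ E] [FiniteDimensional ℝ E]
    {u : E → X} {x : E} (h : D.At u x) :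
    (con F hF h0).val u x = dx (cov (fun j y => F j (u y)) x) := Form.mk'_val (D := D) h

theorem con_sg : (con F hF h0).sg = -con F hF h0 :=
  Form.ext_val fun E _ _ _ u x h => by
    rw [Form.sg_val, Form.neg_val, con_val hF h0 h, inv_dx]

/-- naturality -/
theorem con_pull {Y : Type*} {D' : Dif Y} {f : Y → X} (hf : D'.Map D f)
    {F' : Fin J → Y → ℂ} (hF' : ∀ j, D'.Map (Dif.lin ℂ) (F' j)) (h0' : ∀ y, 0 < nsq F' y)
    (he : ∀ j y, F' j y = F j (f y)) :
    Form.pull f hf (con F hF h0) = con F' hF' h0' :=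
  Form.ext_val fun E _ _ _ u x h => by
    rw [Form.pull_val _ _ h, con_val hF h0 (hf h), con_val hF' h0' h]
    congr 1
    exact cov_congr fun j => Eventually.of_forall fun y => (he j (u y)).symm

/-- the flow of a circle action -/
def flw {A : CAct D} (p : X × ℝ) : X := A.φ p.1 p.2

theorem isFlow (A : CAct D) : IsFlow D 1 (flw (A := A)) where
  map := A.smooth
  zero := A.zero
  add := A.add
  per := A.per

theorem dt_val' {E : Type} [NormedAddCommGroup E] [NormedSpace ℝ E] [FiniteDimensional ℝ E]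
    {u : E → X × ℝ} {x : E} (h : (D.prod (Dif.lin ℝ)).At u x) :
    (dt (D := D)).val u x = dx (fderiv ℝ (fun y => (u y).2) x) := by
  rw [dt, Form.d_val _ h]
  have h1 : (Form.fn Prod.snd (Dif.map_snd (D := D) (D' := Dif.lin ℝ))).val u
      =ᶠ[𝓝 x] Fm.fn (fun y => (u y).2) := by
    filter_upwards [(D.prod (Dif.lin ℝ)).open' h] with p hp
    rw [Form.fn_val _ _ hp]
    rfl
  rw [extd_congr h1, extd_fn (Sm.differentiableAt h.2)]

/-- **`con` is a connection form** -/
theorem con_flow {A : CAct D} (he : ∀ j, Equi A (F j)) :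
    Form.pull (flw (A := A)) (isFlow A).map (con F hF h0) = pr (con F hF h0) + dt :=
  Form.ext_val fun E _ _ _ u x h => by
    have h1 : D.At (flw (A := A) ∘ u) x := (isFlow A).map h
    have h1' : D.At (Prod.fst ∘ u) x := h.1
    rw [Form.pull_val _ _ h, con_val hF h0 h1, Form.add_val, pr,
      Form.pull_val (Dif.map_fst (D := D) (D' := Dif.lin ℝ)) _ h, con_val hF h0 h1', dt_val' h,
      ← map_add]
    congr 1
    have h2 : ∀ j, (fun y => F j ((flw (A := A) ∘ u) y)) =
        fun y => Complex.exp ((2 * Real.pi * (u y).2 : ℝ) * Complex.I) * F j (u y).1 :=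
      fun j => funext fun y => he j _ _
    have h3 := cov_rot (f := fun j y => F j (u y).1) (τ := fun y => (u y).2) (x := x)
      (fun j => Sm.differentiableAt (hF j h.1)) (Sm.differentiableAt h.2) (h0 (u x).1)
    refine Eq.trans ?_ h3
    congr 1
    funext j
    exact h2 j

theorem con_deg : Form.IsDeg 1 (con F hF h0) :=
  Form.ext_val fun E _ _ _ u x h => by
    rw [Form.part_val, con_val hF h0 h, dx_eq, WA.prt_dxl, if_pos rfl]

end Con

/-! ### mixing connections -/

section Mix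

variable {X : Type*} {D : Dif X} {Φ : X × ℝ → X} (hΦ : (D.prod (Dif.lin ℝ)).Map D Φ)

/-- a convex combination of two connections with invariant coefficients is a connection -/
theorem mix_flow {a₁ a₂ : Form D} (h1 : Form.pull Φ hΦ a₁ = pr a₁ + dt)
    (h2 : Form.pull Φ hΦ a₂ = pr a₂ + dt) {c : Form D} (hc : Form.pull Φ hΦ c = pr c) :
    Form.pull Φ hΦ (c * a₁ + (1 - c) * a₂) = pr (c * a₁ + (1 - c) * a₂) + dt := by
  have e1 : ∀ a b : Form D, Form.pull Φ hΦ (a * b) = Form.pull Φ hΦ a * Form.pull Φ hΦ b :=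
    fun a b => map_mul (Form.pullA Φ hΦ) a b
  have e2 : ∀ a b : Form D, Form.pull Φ hΦ (a + b) = Form.pull Φ hΦ a + Form.pull Φ hΦ b :=
    fun a b => map_add (Form.pullA Φ hΦ) a b
  have e3 : ∀ a b : Form D, Form.pull Φ hΦ (a - b) = Form.pull Φ hΦ a - Form.pull Φ hΦ b :=
    fun a b => map_sub (Form.pullA Φ hΦ) a b
  have e4 : Form.pull Φ hΦ (1 : Form D) = 1 := map_one (Form.pullA Φ hΦ)
  have f1 : ∀ a b : Form D, pr (a * b) = pr a * pr b :=
    fun a b => map_mul (Form.pullA Prod.fst (Dif.map_fst (D := D) (D' := Dif.lin ℝ))) a b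
  have f2 : ∀ a b : Form D, pr (a + b) = pr a + pr b :=
    fun a b => map_add (Form.pullA Prod.fst (Dif.map_fst (D := D) (D' := Dif.lin ℝ))) a b
  have f3 : ∀ a b : Form D, pr (a - b) = pr a - pr b :=
    fun a b => map_sub (Form.pullA Prod.fst (Dif.map_fst (D := D) (D' := Dif.lin ℝ))) a b
  have f4 : pr (1 : Form D) = 1 :=
    map_one (Form.pullA Prod.fst (Dif.map_fst (D := D) (D' := Dif.lin ℝ)))
  rw [e2, e1, e1, e3, e4, h1, h2, hc, f2, f1, f1, f3, f4]
  noncomm_ring

/-- the difference of two connections is basic -/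
theorem diff_basic {a₁ a₂ : Form D} (h1 : Form.pull Φ hΦ a₁ = pr a₁ + dt)
    (h2 : Form.pull Φ hΦ a₂ = pr a₂ + dt) : Basic Φ hΦ (a₁ - a₂) := by
  have e3 : Form.pull Φ hΦ (a₁ - a₂) = Form.pull Φ hΦ a₁ - Form.pull Φ hΦ a₂ :=
    map_sub (Form.pullA Φ hΦ) a₁ a₂
  have f3 : pr (a₁ - a₂) = pr a₁ - pr a₂ :=
    map_sub (Form.pullA Prod.fst (Dif.map_fst (D := D) (D' := Dif.lin ℝ))) a₁ a₂
  change Form.pull Φ hΦ (a₁ - a₂) = pr (a₁ - a₂)
  rw [e3, h1, h2, f3]
  abel

end Mix

/-! ### the connection of a family of loops -/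

section Fam

variable {M : Type*} [MetricSpace M] {DM : Dif M} {S : NNReal} {V : ℝ≥0∞} {δ : ℝ} {J : ℕ}
  {B : Type*} {DB : Dif B} {A : CAct DB}

/-- the connection form of a family of loops -/
def Fam.con (X : Fam A DM S V δ J) (hδ : 0 < δ) : Form DB :=
  S3L.con X.F X.hF fun b => nsq_pos hδ (X.cov b)

theorem Fam.con_flow (X : Fam A DM S V δ J) (hδ : 0 < δ) :
    Form.pull (flw (A := A)) (isFlow A).map (X.con hδ) = pr (X.con hδ) + dt :=
  S3L.con_flow X.hF _ X.equi

theorem Fam.con_sg (X : Fam A DM S V δ J) (hδ : 0 < δ) : (X.con hδ).sg = -X.con hδ :=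
  S3L.con_sg X.hF _

theorem Fam.con_deg (X : Fam A DM S V δ J) (hδ : 0 < δ) : Form.IsDeg 1 (X.con hδ) :=
  S3L.con_deg X.hF _

/-- the connection forms are pulled back from the universal family -/
theorem Fam.pull_con (X : Fam A DM S V δ J) (hδ : 0 < δ) :
    Form.pull X.cls X.map_cls ((univ DM S V δ J).con hδ) = X.con hδ :=
  S3L.con_pull _ _ X.map_cls X.hF _ fun _ _ => rfl

theorem Fam.con_pb (X : Fam A DM S V δ J) (hδ : 0 < δ) {B' : Type*} {DB' : Dif B'}
    {A' : CAct DB'} {f : B' → B} (hf : DB'.Map DB f) (he : ∀ b s, f (A'.φ b s) = A.φ (f b) s)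
    (hpt : ∀ b, DB'.At (fun _ : ℝ => b) 0) :
    Form.pull f hf (X.con hδ) = (X.pb f hf he hpt).con hδ :=
  S3L.con_pull _ _ hf _ _ fun _ _ => rfl

end Fam

end

end Vale.Agent.P231.S3L
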