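import Vale.Agent.P231.S3L.LL

/-!
# P231, stage 3, block S3-LL, part 2: families of loops as equivariant maps to the universal
family; uniqueness and naturality of the classifying map
-/

set_option linter.unusedSectionVars false
set_option linter.unusedVariables false

open Set Filter Topology
open scoped ContDiff ENNReal

namespace Vale.Agent.P231.S3L

open Vale.Agent.P231.Fm Vale.Agent.P231.H766

variable {M : Type*} [MetricSpace M] {DM : Dif M} {S : NNReal} {V : ℝ≥0∞} {δ : ℝ} {J : ℕ}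

section At

variable {E : Type} [NormedAddCommGroup E] [NormedSpace ℝ E] [FiniteDimensional ℝ E]

/-- a point at a smooth time -/
theorem at_time {u : E → LL DM S V δ J} {x : E} (h : (dLL DM S V δ J).At u x) {τ : E → ℝ}
    (hτ : Sm τ x) : DM.At (fun y => (u y).c (τ y)) x :=
  DM.comp (u := fun p : E × ℝ => (u p.1).c p.2) (g := fun y => (y, τ y))
    (h.1.self_of_nhds (τ x)) ((Sm.of_contDiff contDiff_id x).prodMk hτ)

theorem at_a {u : E → LL DM S V δ J} {x : E} (h : (dLL DM S V δ J).At u x) (j : Fin J) :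
    Sm (fun y => (u y).a j) x := map_fa j h

end At

/-- points are plots -/
theorem pt_LL (z : LL DM S V δ J) : (dLL DM S V δ J).At (fun _ : ℝ => z) 0 := by
  refine ⟨Eventually.of_forall fun y t => ?_, Sm.of_contDiff contDiff_const 0⟩
  exact z.sm (u := fun q : ℝ × ℝ => q.2) (Sm.of_contDiff contDiff_snd _)

/-! ### families -/

/-- a smooth family of `S`-Lipschitz loops of variation at most `V`, with enough equivariant
functions; the loop of `b` is `t ↦ C (A.φ b t)` -/
structure Fam {B : Type*} {DB : Dif B} (A : CAct DB) (DM : Dif M) (S : NNReal) (V : ℝ≥0∞)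
    (δ : ℝ) (J : ℕ) where
  C : B → M
  F : Fin J → B → ℂ
  pt : ∀ b, DB.At (fun _ : ℝ => b) 0
  hC : DB.Map DM C
  hF : ∀ j, DB.Map (Dif.lin ℂ) (F j)
  equi : ∀ j, Equi A (F j)
  lip : ∀ b s t, dist (C (A.φ b s)) (C (A.φ b t)) ≤ S * |s - t|
  var : ∀ b, eVariationOn (fun t => C (A.φ b t)) (Icc 0 1) ≤ V
  cov : ∀ b, ∃ j, δ ≤ ‖F j b‖

variable (DM S V δ J) in
/-- **the universal family** -/
def univ : Fam (actL DM S V δ J) DM S V δ J where
  C := ev0
  F := fa
  pt := pt_LL
  hC := map_ev0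
  hF := map_fa
  equi := equi_fa
  lip := dist_loop
  var := var_loop
  cov z := z.bound

namespace Fam

variable {B : Type*} {DB : Dif B} {A : CAct DB} (X : Fam A DM S V δ J)

theorem ext' {X X' : Fam A DM S V δ J} (h : X.C = X'.C) (h' : X.F = X'.F) : X = X' := by
  cases X
  cases X'
  congr

theorem at_loop {E : Type} [NormedAddCommGroup E] [NormedSpace ℝ E] [FiniteDimensional ℝ E]
    {u : E → B} {τ : E → ℝ} {x : E} (hu : DB.At u x) (hτ : Sm τ x) :
    DM.At (fun y => X.C (A.φ (u y) (τ y))) x := X.hC (A.at_phi hu hτ)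

/-- the list of the equivariant functions -/
def L : List (B → ℂ) := List.ofFn X.F

theorem mem_L {f : B → ℂ} : f ∈ X.L ↔ ∃ j, X.F j = f := by
  rw [L, List.mem_ofFn]

/-- the hypotheses of the equivariant contraction -/
theorem list : ∀ f ∈ X.L, DB.Map (Dif.lin ℂ) f ∧ Equi A f := by
  intro f h
  obtain ⟨j, rfl⟩ := X.mem_L.1 h
  exact ⟨X.hF j, X.equi j⟩

theorem list_cov (b : B) : ∃ f ∈ X.L, δ ≤ ‖f b‖ := by
  obtain ⟨j, hj⟩ := X.cov b
  exact ⟨X.F j, X.mem_L.2 ⟨j, rfl⟩, hj⟩

theorem per (b : B) (t : ℝ) : X.C (A.φ b (t + 1)) = X.C (A.φ b t) := by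
  have h := A.add_int b t 1
  rw [Int.cast_one] at h
  rw [h]

/-- the classifying map of a family -/
def cls : B → LL DM S V δ J := S3L.cls A X.hC X.pt X.lip X.var X.cov

theorem cls_c (b : B) (t : ℝ) : (X.cls b).c t = X.C (A.φ b t) := rfl

theorem cls_a (b : B) (j : Fin J) : (X.cls b).a j = X.F j b := rfl

theorem ev_cls (b : B) : ev0 (X.cls b) = X.C b := ev0_cls A X.hC X.pt X.lip X.var X.cov b

theorem fa_cls (j : Fin J) (b : B) : fa j (X.cls b) = X.F j b := rfl

/-- the classifying map is smooth -/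
theorem map_cls : DB.Map (dLL DM S V δ J) X.cls :=
  S3L.map_cls A X.hC X.pt X.lip X.var X.cov X.hF

/-- the classifying map is equivariant -/
theorem cls_phi (b : B) (s : ℝ) : X.cls (A.φ b s) = (actL DM S V δ J).φ (X.cls b) s :=
  S3L.cls_act A X.hC X.pt X.lip X.var X.cov X.equi b s

/-- the classifying map is unique -/
theorem cls_unique {κ : B → LL DM S V δ J}
    (h1 : ∀ b s, κ (A.φ b s) = (actL DM S V δ J).φ (κ b) s) (h2 : ∀ b, ev0 (κ b) = X.C b)
    (h3 : ∀ j b, fa j (κ b) = X.F j b) : κ = X.cls := by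
  funext b
  refine LL.ext' (fun t => ?_) (fun j => h3 j b)
  rw [cls_c, ← h2, h1, ev0_act]

/-! ### pullback of families -/

section Pb

variable {B' : Type*} {DB' : Dif B'} {A' : CAct DB'} (f : B' → B)

/-- the pullback of a family under an equivariant map -/
def pb (hf : DB'.Map DB f) (he : ∀ b s, f (A'.φ b s) = A.φ (f b) s)
    (hpt : ∀ b, DB'.At (fun _ : ℝ => b) 0) : Fam A' DM S V δ J where
  C b := X.C (f b)
  F j b := X.F j (f b)
  pt := hpt
  hC := Dif.Map.comp X.hC hf
  hF j := Dif.Map.comp (X.hF j) hf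
  equi j b t := by
    beta_reduce
    rw [he]
    exact X.equi j (f b) t
  lip b s t := by
    rw [he, he]
    exact X.lip (f b) s t
  var b := by
    have h1 : (fun t => X.C (f (A'.φ b t))) = fun t => X.C (A.φ (f b) t) :=
      funext fun t => by rw [he]
    rw [h1]
    exact X.var (f b)
  cov b := X.cov (f b)

variable {f} in
/-- naturality of the classifying map -/
theorem cls_pb (hf : DB'.Map DB f) (he : ∀ b s, f (A'.φ b s) = A.φ (f b) s)
    (hpt : ∀ b, DB'.At (fun _ : ℝ => b) 0) : (X.pb f hf he hpt).cls = X.cls ∘ f := by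
  funext b
  refine LL.ext' (fun t => ?_) fun j => rfl
  rw [cls_c]
  change X.C (f (A'.φ b t)) = X.C (A.φ (f b) t)
  rw [he]

end Pb

/-- the classifying map of the universal family is the identity -/
theorem cls_univ : (univ DM S V δ J).cls = id :=
  funext fun z => LL.ext' (fun t => ev0_act z t) fun _ => rfl

/-- every family is the pullback of the universal family -/
theorem eq_pb : X = (univ DM S V δ J).pb X.cls X.map_cls X.cls_phi X.pt :=
  ext' (funext fun b => (X.ev_cls b).symm) rfl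

/-- restriction to an invariant subset -/
def res (U : Set B) (hU : ∀ b ∈ U, ∀ t, A.φ b t ∈ U) {A' : CAct (DB.sub U)}
    (hA : ∀ b t, (A'.φ b t : B) = A.φ b t) : Fam A' DM S V δ J :=
  X.pb Subtype.val Dif.map_sub hA fun b => X.pt b

end Fam

/-! ### enlarging the bounds -/

/-- a family is also a family with weaker bounds -/
def Fam.mono {B : Type*} {DB : Dif B} {A : CAct DB} (X : Fam A DM S V δ J) {S' : NNReal}
    {V' : ℝ≥0∞} {δ' : ℝ} (hS : S ≤ S') (hV : V ≤ V') (hδ : δ' ≤ δ) : Fam A DM S' V' δ' J where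
  C := X.C
  F := X.F
  pt := X.pt
  hC := X.hC
  hF := X.hF
  equi := X.equi
  lip b s t := (X.lip b s t).trans
    (mul_le_mul_of_nonneg_right (NNReal.coe_le_coe.2 hS) (abs_nonneg _))
  var b := (X.var b).trans hV
  cov b := by
    obtain ⟨j, hj⟩ := X.cov b
    exact ⟨j, hδ.trans hj⟩

/-- the inclusion of the spaces of loops -/
def LL.incl {S' : NNReal} {V' : ℝ≥0∞} {δ' : ℝ} (hS : S ≤ S') (hV : V ≤ V') (hδ : δ' ≤ δ)
    (z : LL DM S V δ J) : LL DM S' V' δ' J where
  c := z.c
  a := z.a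
  sm := z.sm
  per := z.per
  lip := z.lip.weaken hS
  var := z.var.trans hV
  bound := by
    obtain ⟨j, hj⟩ := z.bound
    exact ⟨j, hδ.trans hj⟩

theorem map_incl {S' : NNReal} {V' : ℝ≥0∞} {δ' : ℝ} (hS : S ≤ S') (hV : V ≤ V')
    (hδ : δ' ≤ δ) : (dLL DM S V δ J).Map (dLL DM S' V' δ' J) (LL.incl hS hV hδ) := fun h => h

theorem incl_act {S' : NNReal} {V' : ℝ≥0∞} {δ' : ℝ} (hS : S ≤ S') (hV : V ≤ V') (hδ : δ' ≤ δ)
    (z : LL DM S V δ J) (s : ℝ) : LL.incl hS hV hδ ((actL DM S V δ J).φ z s) =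
      (actL DM S' V' δ' J).φ (LL.incl hS hV hδ z) s := rfl

theorem Fam.cls_mono {B : Type*} {DB : Dif B} {A : CAct DB} (X : Fam A DM S V δ J)
    {S' : NNReal} {V' : ℝ≥0∞} {δ' : ℝ} (hS : S ≤ S') (hV : V ≤ V') (hδ : δ' ≤ δ) (b : B) :
    (X.mono hS hV hδ).cls b = LL.incl hS hV hδ (X.cls b) := rfl

/-! ### families of loops without action -/

/-- a smooth family of loops, without action -/
structure Fml {Y : Type*} (DY : Dif Y) (DM : Dif M) (S : NNReal) (V : ℝ≥0∞) (δ : ℝ)
    (J : ℕ) where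
  c : Y → ℝ → M
  a : Y → Fin J → ℂ
  pt : ∀ y, DY.At (fun _ : ℝ => y) 0
  hc : (DY.prod (Dif.lin ℝ)).Map DM fun p => c p.1 p.2
  ha : DY.Map (Dif.lin (Fin J → ℂ)) a
  per : ∀ y t, c y (t + 1) = c y t
  lip : ∀ y, LipschitzWith S (c y)
  var : ∀ y, eVariationOn (c y) (Icc 0 1) ≤ V
  cov : ∀ y, ∃ j, δ ≤ ‖a y j‖

namespace Fml

variable {Y : Type*} {DY : Dif Y} (X : Fml DY DM S V δ J)

/-- the classifying map -/
def cls (y : Y) : LL DM S V δ J where
  c := X.c y
  a := X.a y
  sm := by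
    intro E _ _ _ u x hu
    exact X.hc (u := fun z => (y, u z)) ⟨Dif.At_const (X.pt y) x, hu⟩
  per := X.per y
  lip := X.lip y
  var := X.var y
  bound := X.cov y

theorem cls_c (y : Y) (t : ℝ) : (X.cls y).c t = X.c y t := rfl

theorem cls_a (y : Y) (j : Fin J) : (X.cls y).a j = X.a y j := rfl

theorem map_cls : DY.Map (dLL DM S V δ J) X.cls :=
  map_free X.hc X.ha (fun _ _ => rfl) fun _ => rfl

end Fml

/-- a family with action, without its action -/
def Fam.fml {B : Type*} {DB : Dif B} {A : CAct DB} (X : Fam A DM S V δ J) :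
    Fml DB DM S V δ J where
  c b t := X.C (A.φ b t)
  a b j := X.F j b
  pt := X.pt
  hc := by
    intro E _ _ _ u x hu
    exact X.at_loop hu.1 hu.2
  ha := by
    intro E _ _ _ u x hu
    exact (X.map_cls hu).2
  per := X.per
  lip b := LipschitzWith.of_dist_le_mul fun s t => by
    rw [Real.dist_eq]
    exact X.lip b s t
  var := X.var
  cov := X.cov

theorem Fam.fml_cls {B : Type*} {DB : Dif B} {A : CAct DB} (X : Fam A DM S V δ J) :
    X.fml.cls = X.cls := rfl

/-! ### constant loops -/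

/-- `z` is a constant loop -/
def Cst (z : LL DM S V δ J) : Prop := ∀ t, z.c t = z.c 0

theorem Cst.act {z : LL DM S V δ J} (h : Cst z) (s : ℝ) : Cst ((actL DM S V δ J).φ z s) := by
  intro t
  rw [actL_c, actL_c, h, h (0 + s)]

theorem cst_cls {B : Type*} {DB : Dif B} {A : CAct DB} (X : Fam A DM S V δ J) (b : B) :
    Cst (X.cls b) ↔ ∀ t, X.C (A.φ b t) = X.C b := by
  constructor
  · intro h t
    have h1 := h t
    rw [X.cls_c, X.cls_c, A.zero] at h1
    exact h1
  · intro h t
    rw [X.cls_c, X.cls_c, h, A.zero]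

end Vale.Agent.P231.S3L
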