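import Vale.Agent.P231.H766.Uec3

/-!
# P231, stage 3: the universal family of loops

`LL DM S V δ J` is the space of pairs `(c, a)`, `c` a smooth loop of period one in `M` with
Lipschitz constant `S` and variation at most `V`, and `a ∈ ℂ ^ J` with `δ ≤ |a j|` for some `j`. The
circle acts by rotation of the loop and by multiplication of `a`.
-/

set_option linter.unusedSectionVars false
set_option linter.unusedVariables false

open Set Filter Topology Module
open scoped ContDiff ENNReal

namespace Vale.Agent.P231.S3L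

open Vale.Agent.P231.Fm Vale.Agent.P231.H766

/-- the universal family -/
structure LL {M : Type*} [PseudoEMetricSpace M] (DM : Dif M) (S : NNReal) (V : ℝ≥0∞) (δ : ℝ)
    (J : ℕ) where
  c : ℝ → M
  a : Fin J → ℂ
  sm : (Dif.lin ℝ).Map DM c
  per : ∀ t, c (t + 1) = c t
  lip : LipschitzWith S c
  var : eVariationOn c (Icc 0 1) ≤ V
  bound : ∃ j, δ ≤ ‖a j‖

variable {M : Type*} [MetricSpace M] {DM : Dif M} {S : NNReal} {V : ℝ≥0∞} {δ : ℝ} {J : ℕ}

theorem LL.ext' {b b' : LL DM S V δ J} (hc : ∀ t, b.c t = b'.c t) (ha : ∀ j, b.a j = b'.a j) :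
    b = b' := by
  cases b
  cases b'
  obtain rfl := funext hc
  obtain rfl := funext ha
  rfl

/-- the diffeology of the universal family: the loops depend smoothly on the parameters -/
def dLL (DM : Dif M) (S : NNReal) (V : ℝ≥0∞) (δ : ℝ) (J : ℕ) : Dif (LL DM S V δ J) where
  At {E} _ _ _ u x := (∀ᶠ y in 𝓝 x, ∀ t : ℝ, DM.At (fun p : E × ℝ => (u p.1).c p.2) (y, t)) ∧
    Sm (fun y => (u y).a) x
  open' h := (eventually_eventually_nhds.2 h.1).and h.2.eventually
  congr {E} _ _ _ u v x h hv := by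
    refine ⟨?_, h.2.congr (hv.fun_comp LL.a)⟩
    filter_upwards [h.1, hv.eventuallyEq_nhds] with y h1 h2 t
    refine DM.congr (h1 t) ?_
    have h3 : ∀ᶠ p : E × ℝ in 𝓝 (y, t), u p.1 = v p.1 :=
      (continuous_fst.tendsto (y, t)).eventually h2
    filter_upwards [h3] with p hp
    rw [hp]
  comp {E F} _ _ _ _ _ _ u g x h hg := by
    refine ⟨?_, h.2.comp hg⟩
    filter_upwards [hg.eventually, hg.continuousAt.eventually h.1] with y h1 h2 t
    have h3 : Sm (fun p : E × ℝ => (g p.1, p.2)) (y, t) :=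
      (h1.comp (f := g) (Sm.of_contDiff contDiff_fst (y, t))).prodMk
        (Sm.of_contDiff contDiff_snd (y, t))
    exact DM.comp (u := fun p : F × ℝ => (u p.1).c p.2) (g := fun p : E × ℝ => (g p.1, p.2))
      (x := (y, t)) (h2 t) h3

/-- rotation of the loops -/
noncomputable def rotL (b : LL DM S V δ J) (s : ℝ) : LL DM S V δ J where
  c t := b.c (t + s)
  a j := Complex.exp ((2 * Real.pi * s : ℝ) * Complex.I) * b.a j
  sm := fun {E} _ _ _ {u x} hu => b.sm (u := fun y => u y + s)
    (Sm.comp (f := fun t : ℝ => t + s) (Sm.of_contDiff (by fun_prop) _) hu)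
  per t := by
    have h1 := b.per (t + s)
    rw [show t + 1 + s = t + s + 1 by ring]
    exact h1
  lip := by
    intro x y
    have h1 := b.lip (x + s) (y + s)
    rwa [edist_add_right] at h1
  var := by
    have h1 : eVariationOn (fun t => b.c (t + s)) (Icc 0 1) =
        eVariationOn b.c (Icc s (s + 1)) := by
      have h2 := eVariationOn.comp_eq_of_monotoneOn b.c (fun t : ℝ => t + s) (t := Icc 0 1)
        (fun x _ y _ h => by simpa using h)
      have h3 : (fun t : ℝ => t + s) '' Icc 0 1 = Icc s (s + 1) := by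
        rw [image_add_const_Icc, zero_add, add_comm]
      rw [h3] at h2
      exact h2
    rw [h1, var_period b.per s]
    exact b.var
  bound := by
    obtain ⟨j, hj⟩ := b.bound
    refine ⟨j, ?_⟩
    rw [norm_mul, Complex.norm_exp_ofReal_mul_I, one_mul]
    exact hj

/-- the circle action -/
noncomputable def actL (DM : Dif M) (S : NNReal) (V : ℝ≥0∞) (δ : ℝ) (J : ℕ) :
    CAct (dLL DM S V δ J) where
  φ b s := rotL b s
  smooth := by
    intro E _ _ _ u x hu
    obtain ⟨⟨h1, h2⟩, h3⟩ := hu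
    refine ⟨?_, ?_⟩
    · filter_upwards [h1, h3.eventually] with y h4 h5 t
      have h6 : Sm (fun p : E × ℝ => (p.1, p.2 + (u p.1).2)) (y, t) := by
        refine (Sm.of_contDiff contDiff_fst (y, t)).prodMk ?_
        have h7 : Sm (fun p : E × ℝ => (u p.1).2) (y, t) :=
          h5.comp (f := fun y => (u y).2) (Sm.of_contDiff contDiff_fst (y, t))
        filter_upwards [h7] with p hp
        exact contDiffAt_snd.add hp
      exact DM.comp (u := fun p : E × ℝ => (u p.1).1.c p.2)
        (g := fun p : E × ℝ => (p.1, p.2 + (u p.1).2)) (x := (y, t)) (h4 _) h6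
    · show Sm (fun y => fun j => Complex.exp ((2 * Real.pi * (u y).2 : ℝ) * Complex.I) *
        (u y).1.a j) x
      filter_upwards [h2, h3] with y h4 h5
      refine contDiffAt_pi.2 fun j => ?_
      have h6 : ContDiffAt ℝ ∞ (fun y => (u y).1.a j) y := (contDiffAt_pi.1 h4) j
      refine ContDiffAt.mul ?_ h6
      refine ContDiffAt.cexp ?_
      refine ContDiffAt.mul ?_ contDiffAt_const
      exact Complex.ofRealCLM.contDiff.contDiffAt.comp y (contDiffAt_const.mul h5)
  zero b := LL.ext' (fun t => by simp [rotL]) (fun j => by simp [rotL])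
  add b s t := LL.ext' (fun r => by simp [rotL, add_assoc, add_comm t s]) (fun j => by
    simp only [rotL]
    rw [← mul_assoc, ← Complex.exp_add]
    congr 2
    push_cast
    ring)
  per b := LL.ext' (fun t => b.per t) (fun j => by
    simp only [rotL]
    rw [mul_one, Complex.ofReal_mul, Complex.ofReal_ofNat, Complex.exp_two_pi_mul_I, one_mul])

theorem actL_c (b : LL DM S V δ J) (s t : ℝ) : ((actL DM S V δ J).φ b s).c t = b.c (t + s) := rfl

/-- the evaluation map -/
def ev0 (b : LL DM S V δ J) : M := b.c 0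

theorem map_ev0 : (dLL DM S V δ J).Map DM ev0 := by
  intro E _ _ _ u x hu
  have h1 := hu.1.self_of_nhds 0
  exact DM.comp (u := fun p : E × ℝ => (u p.1).c p.2) (g := fun y : E => (y, (0 : ℝ))) (x := x)
    h1 ((Sm.of_contDiff contDiff_id x).prodMk (Sm.of_contDiff contDiff_const x))

theorem ev0_act (b : LL DM S V δ J) (t : ℝ) : ev0 ((actL DM S V δ J).φ b t) = b.c t := by
  show b.c (0 + t) = b.c t
  rw [zero_add]

/-- the functions without zeros -/
def fa (j : Fin J) (b : LL DM S V δ J) : ℂ := b.a j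

theorem map_fa (j : Fin J) : (dLL DM S V δ J).Map (Dif.lin ℂ) (fa j) := by
  intro E _ _ _ u x hu
  show Sm (fun y => (u y).a j) x
  filter_upwards [hu.2] with y h
  exact contDiffAt_pi.1 h j

theorem equi_fa (j : Fin J) : Equi (actL DM S V δ J) (fa j) := fun b t => rfl

/-- the list of functions, in the form of the equivariant contraction -/
theorem list_fa : ∀ f ∈ (List.ofFn fun j : Fin J => (fa j : LL DM S V δ J → ℂ)),
    (dLL DM S V δ J).Map (Dif.lin ℂ) f ∧ Equi (actL DM S V δ J) f := by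
  intro f hf
  obtain ⟨j, rfl⟩ := (List.mem_ofFn' _ _).1 hf
  exact ⟨map_fa j, equi_fa j⟩

theorem cov_fa (b : LL DM S V δ J) :
    ∃ f ∈ (List.ofFn fun j : Fin J => (fa j : LL DM S V δ J → ℂ)), δ ≤ ‖f b‖ := by
  obtain ⟨j, hj⟩ := b.bound
  exact ⟨fa j, (List.mem_ofFn' _ _).2 ⟨j, rfl⟩, hj⟩

/-- the loops of the universal family -/
theorem loop_eq (b : LL DM S V δ J) :
    (fun t => ev0 ((actL DM S V δ J).φ b t)) = b.c := funext fun t => ev0_act b t

theorem dist_loop (b : LL DM S V δ J) (s t : ℝ) :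
    dist (ev0 ((actL DM S V δ J).φ b s)) (ev0 ((actL DM S V δ J).φ b t)) ≤ S * |s - t| := by
  rw [ev0_act, ev0_act, ← Real.dist_eq]
  exact b.lip.dist_le_mul s t

theorem var_loop (b : LL DM S V δ J) :
    eVariationOn (fun t => ev0 ((actL DM S V δ J).φ b t)) (Icc 0 1) ≤ V := by
  rw [loop_eq]
  exact b.var

/-! ### the classifying map of an equivariant family -/

section classify

variable {B : Type*} {DB : Dif B} (A : CAct DB) {C : B → M} (hC : DB.Map DM C)
  {f : Fin J → B → ℂ} (hpt : ∀ b, DB.At (fun _ : ℝ => b) 0)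

include hpt in
theorem at_const_phi (b : B) {E : Type} [NormedAddCommGroup E] [NormedSpace ℝ E]
    [FiniteDimensional ℝ E] {τ : E → ℝ} {x : E} (hτ : Sm τ x) :
    DB.At (fun y => A.φ b (τ y)) x := by
  refine A.at_phi (u := fun _ : E => b) ?_ hτ
  exact DB.comp (u := fun _ : ℝ => b) (g := fun _ : E => (0 : ℝ)) (hpt b)
    (Sm.of_contDiff contDiff_const x)

/-- the classifying map -/
def cls (hlip : ∀ b s t, dist (C (A.φ b s)) (C (A.φ b t)) ≤ S * |s - t|)
    (hvar : ∀ b, eVariationOn (fun t => C (A.φ b t)) (Icc 0 1) ≤ V)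
    (hf : ∀ b, ∃ j, δ ≤ ‖f j b‖) (b : B) : LL DM S V δ J where
  c t := C (A.φ b t)
  a j := f j b
  sm := fun {E} _ _ _ {u x} hu => hC (at_const_phi A hpt b hu)
  per t := by
    have h1 := A.add b t 1
    have h2 := A.add b 1 t
    rw [A.per] at h2
    rw [add_comm t 1, ← h2]
  lip := LipschitzWith.of_dist_le_mul fun s t => by
    rw [Real.dist_eq]
    exact hlip b s t
  var := hvar b
  bound := hf b

variable (hlip : ∀ b s t, dist (C (A.φ b s)) (C (A.φ b t)) ≤ S * |s - t|)
    (hvar : ∀ b, eVariationOn (fun t => C (A.φ b t)) (Icc 0 1) ≤ V)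
    (hf : ∀ b, ∃ j, δ ≤ ‖f j b‖)

theorem cls_c (b : B) (t : ℝ) : (cls A hC hpt hlip hvar hf b).c t = C (A.φ b t) := rfl

theorem cls_a (b : B) (j : Fin J) : (cls A hC hpt hlip hvar hf b).a j = f j b := rfl

theorem ev0_cls (b : B) : ev0 (cls A hC hpt hlip hvar hf b) = C b := by
  show C (A.φ b 0) = C b
  rw [A.zero]

theorem map_cls (hfs : ∀ j, DB.Map (Dif.lin ℂ) (f j)) :
    DB.Map (dLL DM S V δ J) (cls A hC hpt hlip hvar hf) := by
  intro E _ _ _ u x hu
  refine ⟨?_, ?_⟩
  · filter_upwards [DB.open' hu] with y hy t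
    refine hC (A.at_phi (u := fun p : E × ℝ => u p.1) (τ := fun p : E × ℝ => p.2) ?_
      (Sm.of_contDiff contDiff_snd _))
    exact DB.comp (u := u) (g := fun p : E × ℝ => p.1) (x := (y, t)) hy
      (Sm.of_contDiff contDiff_fst _)
  · have h1 : ∀ j, Sm (fun y => f j (u y)) x := fun j => hfs j hu
    show Sm (fun y => fun j => f j (u y)) x
    have h2 : ∀ᶠ y in 𝓝 x, ∀ j, ContDiffAt ℝ ∞ (fun y => f j (u y)) y :=
      eventually_all.2 h1
    filter_upwards [h2] with y hy
    exact contDiffAt_pi.2 hy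

theorem cls_act (hfe : ∀ j, Equi A (f j)) (b : B) (t : ℝ) :
    cls A hC hpt hlip hvar hf (A.φ b t) = (actL DM S V δ J).φ (cls A hC hpt hlip hvar hf b) t :=
  LL.ext' (fun s => by
    show C (A.φ (A.φ b t) s) = C (A.φ b (s + t))
    rw [A.add, add_comm]) (fun j => hfe j b t)

end classify

/-! ### families without a circle action -/

section free

variable {Y : Type*} {DY : Dif Y} {c : Y → ℝ → M} {a : Y → Fin J → ℂ}

/-- the universal family receives every smooth family of loops -/
theorem map_free (hc : (DY.prod (Dif.lin ℝ)).Map DM (fun p => c p.1 p.2))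
    (ha : DY.Map (Dif.lin (Fin J → ℂ)) a) {q : Y → LL DM S V δ J}
    (hqc : ∀ y t, (q y).c t = c y t) (hqa : ∀ y, (q y).a = a y) :
    DY.Map (dLL DM S V δ J) q := by
  intro E _ _ _ u x hu
  refine ⟨?_, ?_⟩
  · filter_upwards [DY.open' hu] with y hy t
    have h1 : DM.At (fun p : E × ℝ => c (u p.1) p.2) (y, t) :=
      hc (u := fun p : E × ℝ => (u p.1, p.2)) ⟨DY.comp (u := u) (g := fun p : E × ℝ => p.1)
        (x := (y, t)) hy (Sm.of_contDiff contDiff_fst _), Sm.of_contDiff contDiff_snd _⟩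
    have h2 : (fun p : E × ℝ => c (u p.1) p.2) = fun p : E × ℝ => (q (u p.1)).c p.2 :=
      funext fun p => (hqc _ _).symm
    rw [h2] at h1
    exact h1
  · have h2 : (fun y => a (u y)) = fun y => (q (u y)).a := funext fun y => (hqa _).symm
    have h1 : Sm (fun y => a (u y)) x := ha hu
    rw [h2] at h1
    exact h1

end free

end Vale.Agent.P231.S3L
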