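import Vale.Agent.P231.H584.Tau
import Vale.Agent.P231.S3L.Conn

/-!
# P231, stage 3, block S3-SC: change of the time unit

The flow `(x, t) ↦ Φ (x, c t)` of period `T' = T / c`, with the connection form `c⁻¹ α`, has the same
forms `x'`, `y'`, `x`, `y`, `e`, `τ` as the flow `Φ` of period `T`.
-/

set_option linter.unusedSectionVars false
set_option linter.unusedVariables false

open MeasureTheory Set Module Filter Topology
open scoped ContDiff Real

namespace Vale.Agent.P231.S3L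

open Vale.Agent.P231.Fm Vale.Agent.P231.W Vale.Agent.P231.H584

variable {X : Type*} {D : Dif X}

/-- the flow with a new time unit -/
def scl (c : ℝ) (Φ : X × ℝ → X) (p : X × ℝ) : X := Φ (p.1, c * p.2)

variable {Φ : X × ℝ → X}

theorem map_scl (c : ℝ) (hΦ : (D.prod (Dif.lin ℝ)).Map D Φ) :
    (D.prod (Dif.lin ℝ)).Map D (scl c Φ) := fun h => hΦ (map_scale c h)

theorem pull_scl (c : ℝ) (hΦ : (D.prod (Dif.lin ℝ)).Map D Φ) (w : Form D) :
    Form.pull (scl c Φ) (map_scl c hΦ) w =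
      Form.pull (fun p : X × ℝ => (p.1, c * p.2)) (map_scale c) (Form.pull Φ hΦ w) :=
  Form.pull_comp (map_scale c) hΦ (map_scl c hΦ) w

theorem scale_pr (c : ℝ) (w : Form D) :
    Form.pull (fun p : X × ℝ => (p.1, c * p.2)) (map_scale c) (pr w) = pr w :=
  pull_pull (map_scale c) Dif.map_fst Dif.map_fst (fun _ => rfl) w

theorem scale_mul (c : ℝ) (v w : Form (D.prod (Dif.lin ℝ))) :
    Form.pull (fun p : X × ℝ => (p.1, c * p.2)) (map_scale c) (v * w) =
      Form.pull (fun p : X × ℝ => (p.1, c * p.2)) (map_scale c) v *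
        Form.pull (fun p : X × ℝ => (p.1, c * p.2)) (map_scale c) w :=
  map_mul (Form.pullA _ (map_scale c)) v w

theorem scale_add (c : ℝ) (v w : Form (D.prod (Dif.lin ℝ))) :
    Form.pull (fun p : X × ℝ => (p.1, c * p.2)) (map_scale c) (v + w) =
      Form.pull (fun p : X × ℝ => (p.1, c * p.2)) (map_scale c) v +
        Form.pull (fun p : X × ℝ => (p.1, c * p.2)) (map_scale c) w :=
  map_add (Form.pullA _ (map_scale c)) v w

theorem scale_dt (c : ℝ) : Form.pull (fun p : X × ℝ => (p.1, c * p.2)) (map_scale c)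
    (dt (D := D)) = c • dt :=
  Form.ext_val fun E _ _ _ u x h => by
    rw [Form.pull_val _ _ h, dt_val' (map_scale c h), Form.smul_val, dt_val' h, ← map_smul]
    congr 1
    exact fderiv_const_mul (Sm.differentiableAt h.2) c

theorem KT_scale (c s : ℝ) (w : Form (D.prod (Dif.lin ℝ))) :
    KT s (Form.pull (fun p : X × ℝ => (p.1, c * p.2)) (map_scale c) w) = KT (c * s) w := by
  rw [KT, KT]
  congr 1
  exact pull_pull (map_scale s) (map_scale c) (map_scale (c * s))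
    (fun p => by simp only [mul_assoc]) w

theorem Pm_scale (c : ℝ) (w : Form (D.prod (Dif.lin ℝ))) :
    Pm (Form.pull (fun p : X × ℝ => (p.1, c * p.2)) (map_scale c) w) =
      Form.pull (fun p : X × ℝ => (p.1, c * p.2)) (map_scale c) (Pm w) := by
  rw [Pm, Pm, ← K_nat (map_scale c)]
  congr 1
  have h0 : ((D.prod (Dif.lin ℝ)).prod (Dif.lin ℝ)).Map (D.prod (Dif.lin ℝ))
      (fun p : (X × ℝ) × ℝ => (p.1.1, c * (p.1.2 * p.2))) := fun h => map_scale c (map_scal h)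
  rw [pull_pull map_scal (map_scale c) h0 (fun p => rfl) w]
  exact (pull_pull (map_cyl (map_scale c)) map_scal h0 (fun p => by
    rw [scal]
    simp only [mul_assoc]) w).symm

/-- the flow with the new time unit -/
theorem isFlow_scl {T T' c : ℝ} (h : IsFlow D T Φ) (hc : c * T' = T) :
    IsFlow D T' (scl c Φ) where
  map := map_scl c h.map
  zero x := by rw [scl, mul_zero, h.zero]
  add x s t := by rw [scl, scl, scl, h.add, mul_add]
  per x := by rw [scl, hc, h.per]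

theorem contact_scl {c : ℝ} (hc : c ≠ 0) (hΦ : (D.prod (Dif.lin ℝ)).Map D Φ) {α : Form D}
    (hα : Form.pull Φ hΦ α = pr α + dt) :
    Form.pull (scl c Φ) (map_scl c hΦ) (c⁻¹ • α) = pr (c⁻¹ • α) + dt := by
  have e1 : Form.pull (scl c Φ) (map_scl c hΦ) (c⁻¹ • α) =
      c⁻¹ • Form.pull (scl c Φ) (map_scl c hΦ) α := map_smul (Form.pullA _ (map_scl c hΦ)) c⁻¹ α
  have e2 : pr (c⁻¹ • α) = c⁻¹ • pr α :=
    map_smul (Form.pullA _ (Dif.map_fst (D := D) (D' := Dif.lin ℝ))) c⁻¹ α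
  rw [e1, pull_scl c hΦ, hα, scale_add, scale_pr, scale_dt, smul_add, smul_smul, inv_mul_cancel₀ hc,
    one_smul, e2]

theorem basic_scl {c : ℝ} {hΦ : (D.prod (Dif.lin ℝ)).Map D Φ} {w : Form D}
    (hw : Basic Φ hΦ w) : Basic (scl c Φ) (map_scl c hΦ) w := by
  have h1 : Form.pull Φ hΦ w = pr w := hw
  change Form.pull (scl c Φ) (map_scl c hΦ) w = pr w
  rw [pull_scl c hΦ, h1, scale_pr]

theorem scl_scl {c d : ℝ} (h : c * d = 1) (Φ : X × ℝ → X) : scl d (scl c Φ) = Φ := by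
  funext p
  rw [scl, scl, ← mul_assoc, h, one_mul]

theorem basic_scl_iff {c : ℝ} (hc : c ≠ 0) {hΦ : (D.prod (Dif.lin ℝ)).Map D Φ} {w : Form D} :
    Basic (scl c Φ) (map_scl c hΦ) w ↔ Basic Φ hΦ w := by
  refine ⟨fun h => ?_, basic_scl⟩
  have h1 := basic_scl (c := c⁻¹) h
  have h2 : scl c⁻¹ (scl c Φ) = Φ := scl_scl (mul_inv_cancel₀ hc) Φ
  have h3 : Form.pull (scl c⁻¹ (scl c Φ)) (map_scl c⁻¹ (map_scl c hΦ)) w = pr w := h1
  have h4 : Form.pull Φ hΦ w = Form.pull (scl c⁻¹ (scl c Φ)) (map_scl c⁻¹ (map_scl c hΦ)) w :=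
    Form.pull_congr _ _ h2.symm w
  exact h4.trans h3

section Forms

variable {T T' c : ℝ} (hc : c ≠ 0) (hcT : c * T' = T) (hΦ : (D.prod (Dif.lin ℝ)).Map D Φ)
include hcT

theorem J_scl (w : Form D) : J (scl c Φ) (map_scl c hΦ) T' w = J Φ hΦ T w := by
  rw [J_def, J_def, pull_scl, KT_scale, hcT]

include hc

theorem lam_scl (G : Form D) : lam (scl c Φ) (map_scl c hΦ) T' G = lam Φ hΦ T G := by
  rw [lam_def, lam_def, pull_scl c hΦ, Pm_scale]
  have h1 : dt * Form.pull (fun p : X × ℝ => (p.1, c * p.2)) (map_scale c)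
      (Pm (Form.pull Φ hΦ G)) = c⁻¹ • Form.pull (fun p : X × ℝ => (p.1, c * p.2)) (map_scale c)
        (dt * Pm (Form.pull Φ hΦ G)) := by
    rw [scale_mul, scale_dt, smul_mul_assoc, smul_smul, inv_mul_cancel₀ hc, one_smul]
  rw [h1, KT_smul, KT_scale, hcT, smul_smul, ← hcT, mul_inv, mul_comm c⁻¹]

theorem Gh_scl (G : Form D) : Gh (scl c Φ) (map_scl c hΦ) T' G = Gh Φ hΦ T G := by
  rw [Gh_def, Gh_def, lam_scl hc hcT]

theorem y0_scl (n : ℕ) (G : Form D) :
    y0 n (scl c Φ) (map_scl c hΦ) T' G = y0 n Φ hΦ T G := by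
  rw [y0_def, y0_def, lam_scl hc hcT, Gh_scl hc hcT]

omit hc in
theorem xp_scl (G : Form D) : xp (scl c Φ) (map_scl c hΦ) T' G = xp Φ hΦ T G := by
  rw [xp_def, xp_def, J_scl hcT]

theorem yp_scl (n : ℕ) (G : Form D) :
    yp n (scl c Φ) (map_scl c hΦ) T' G = yp n Φ hΦ T G := by
  rw [yp_def, yp_def, J_scl hcT, y0_scl hc hcT]

theorem t2_scl (n : ℕ) (G : Form D) :
    t2 n (scl c Φ) (map_scl c hΦ) T' G = t2 n Φ hΦ T G := by
  rw [t2_def, t2_def, xp_scl hcT, yp_scl hc hcT]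

theorem inv_scl (α : Form D) : T'⁻¹ • (c⁻¹ • α) = T⁻¹ • α := by
  rw [smul_smul, ← hcT, mul_inv, mul_comm]

theorem xc_scl (α G : Form D) :
    xc (scl c Φ) (map_scl c hΦ) T' (c⁻¹ • α) G = xc Φ hΦ T α G := by
  rw [xc_def, xc_def, J_scl hcT, inv_scl hc hcT]

theorem yc_scl (n : ℕ) (α G : Form D) :
    yc n (scl c Φ) (map_scl c hΦ) T' (c⁻¹ • α) G = yc n Φ hΦ T α G := by
  rw [yc_def, yc_def, J_scl hcT, inv_scl hc hcT, y0_scl hc hcT]

/-- **the form `τ` does not depend on the time unit** -/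
theorem tau_scl (A C : ℝ) (α G : Form D) :
    tau A C (scl c Φ) (map_scl c hΦ) T' (c⁻¹ • α) G = tau A C Φ hΦ T α G := by
  have h1 : T'⁻¹ • (c⁻¹ • α).d = T⁻¹ • α.d := by
    rw [Form.d_smul, inv_scl hc hcT]
  rw [tau_def, tau_def, t2_scl hc hcT, xc_scl hc hcT, xp_scl hcT, h1]

end Forms

end Vale.Agent.P231.S3L
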