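import Vale.Agent.P231.S3L.Scale

/-!
# P231, stage 3, block S3-GF, part 1: forms vanishing on a set, homotopies fixing the constant loops
-/

set_option linter.unusedSectionVars false
set_option linter.unusedVariables false

open MeasureTheory Set Module Filter Topology
open scoped ContDiff Real

namespace Vale.Agent.P231.S3L

open Vale.Agent.P231.Fm Vale.Agent.P231.W Vale.Agent.P231.H584

variable {X Y : Type*} {D : Dif X} {D' : Dif Y}

/-- the form `w` vanishes on the plots with values in `Z` -/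
def Van (Z : Set X) (w : Form D) : Prop :=
  ∀ {E : Type} [NormedAddCommGroup E] [NormedSpace ℝ E] [FiniteDimensional ℝ E] {u : E → X}
    {x : E}, D.At u x → (∀ᶠ y in 𝓝 x, u y ∈ Z) → w.val u x = 0

theorem Van.zero (Z : Set X) : Van Z (0 : Form D) := fun {E} _ _ _ {u x} _ _ => rfl

theorem Van.add {Z : Set X} {v w : Form D} (hv : Van Z v) (hw : Van Z w) : Van Z (v + w) :=
  fun {E} _ _ _ {u x} h hu => by rw [Form.add_val, hv h hu, hw h hu, add_zero]

theorem Van.neg {Z : Set X} {w : Form D} (hw : Van Z w) : Van Z (-w) :=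
  fun {E} _ _ _ {u x} h hu => by rw [Form.neg_val, hw h hu, neg_zero]

theorem Van.sub {Z : Set X} {v w : Form D} (hv : Van Z v) (hw : Van Z w) : Van Z (v - w) := by
  rw [sub_eq_add_neg]
  exact hv.add hw.neg

theorem Van.smul {Z : Set X} (c : ℝ) {w : Form D} (hw : Van Z w) : Van Z (c • w) :=
  fun {E} _ _ _ {u x} h hu => by rw [Form.smul_val, hw h hu, smul_zero]

theorem Van.mul_left {Z : Set X} (v : Form D) {w : Form D} (hw : Van Z w) : Van Z (v * w) :=
  fun {E} _ _ _ {u x} h hu => by rw [Form.mul_val, hw h hu, mul_zero]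

theorem Van.mul_right {Z : Set X} {v : Form D} (w : Form D) (hv : Van Z v) : Van Z (v * w) :=
  fun {E} _ _ _ {u x} h hu => by rw [Form.mul_val, hv h hu, zero_mul]

theorem Van.mono {Z Z' : Set X} (hZ : Z ⊆ Z') {w : Form D} (hw : Van Z' w) : Van Z w :=
  fun {E} _ _ _ {u x} h hu => hw h (hu.mono fun y hy => hZ hy)

theorem Van.d {Z : Set X} {w : Form D} (hw : Van Z w) : Van Z w.d :=
  fun {E} _ _ _ {u x} h hu => by
    rw [Form.d_val _ h]
    have h1 : w.val u =ᶠ[𝓝 x] fun _ => 0 := by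
      filter_upwards [D.open' h, hu.eventually_nhds] with y h1 h2 using hw h1 h2
    rw [extd_congr h1]
    exact extd_const _ _

/-- pullback of vanishing forms -/
theorem Van.pull {Z : Set Y} {w : Form D'} (hw : Van Z w) {f : X → Y} (hf : D.Map D' f) :
    Van (f ⁻¹' Z) (Form.pull f hf w) :=
  fun {E} _ _ _ {u x} h hu => by
    rw [Form.pull_val _ _ h]
    exact hw (hf h) hu

/-- a form vanishes on `Z` if and only if its restriction to `Z` is zero -/
theorem van_iff {Z : Set X} {w : Form D} :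
    Van Z w ↔ Form.pull (Subtype.val : Z → X) Dif.map_sub w = 0 := by
  constructor
  · intro h
    refine Form.ext_val fun E _ _ _ u x hu => ?_
    rw [Form.pull_val _ _ hu, Form.zero_val]
    exact h (u := Subtype.val ∘ u) hu (Eventually.of_forall fun y => (u y).2)
  · intro h E _ _ _ u x hu hZ
    classical
    have hx : u x ∈ Z := hZ.self_of_nhds
    let u' : E → Z := fun y => if hy : u y ∈ Z then ⟨u y, hy⟩ else ⟨u x, hx⟩
    have h1 : u =ᶠ[𝓝 x] Subtype.val ∘ u' := by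
      filter_upwards [hZ] with y hy
      simp only [Function.comp_apply, u', dif_pos hy]
    have h2 : (D.sub Z).At u' x := D.congr hu h1
    rw [w.congr hu h1]
    have h3 := congrArg (fun v : Form (D.sub Z) => v.val u' x) h
    beta_reduce at h3
    rw [Form.pull_val _ _ h2, Form.zero_val] at h3
    exact h3

/-! ### homotopies -/

section Hom

variable {T : ℝ} {Φ : X × ℝ → X} (h : IsFlow D T Φ) {α : Form D}

/-- the forms `τ` vanish on the constant loops -/
theorem van_tau (A C : ℝ) {f : X → Y} (hf : D.Map D' f) (F : Form D') {Z : Set X}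
    (hinv : ∀ x ∈ Z, ∀ t, Φ (x, t) ∈ Z) (hZ : ∀ x ∈ Z, ∀ t, f (Φ (x, t)) = f x) :
    Van Z (tau A C Φ h.map T α (Form.pull f hf F)) := by
  rw [van_iff]
  let φ : Z × ℝ → Z := fun p => ⟨Φ ((p.1 : X), p.2), hinv p.1 p.1.2 p.2⟩
  have hφ : ((D.sub Z).prod (Dif.lin ℝ)).Map (D.sub Z) φ := fun {E} _ _ _ {u x} hu =>
    h.map (u := fun y => (((u y).1 : X), (u y).2)) ⟨hu.1, hu.2⟩
  have h1 := pull_tau (φ := φ) (φ' := Φ) hφ h.map (Dif.map_sub (D := D) (S := Z))
    (fun x t => rfl) A C T α (Form.pull f hf F)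
  rw [h1]
  refine tau_of_basic A C ?_
  have h2 : (D.sub Z).Map D' fun z : Z => f z := fun hu => hf hu
  have h3 : Form.pull (Subtype.val : Z → X) Dif.map_sub (Form.pull f hf F) =
      Form.pull (fun z : Z => f z) h2 F :=
    pull_pull (Dif.map_sub (D := D) (S := Z)) hf h2 (fun _ => rfl) F
  rw [h3]
  exact basic_pull h2 (fun z t => hZ z z.2 t) F

/-- the homotopy operator and vanishing -/
theorem Van.K {Z : Set X} {w : Form (D.prod (Dif.lin ℝ))} (hw : Van (Z ×ˢ (Set.univ : Set ℝ)) w) :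
    Van Z (Form.K w) := fun {E} _ _ _ {u x} hu hZ => by
  rw [Form.K_val w hu, kop]
  have h1 : ∀ t : ℝ, w.val (Form.cyl u) (x, t) = 0 := fun t => by
    refine hw (Form.cyl_at hu t) ?_
    have h2 : ∀ᶠ p : E × ℝ in 𝓝 (x, t), u p.1 ∈ Z :=
      (continuous_fst.tendsto ((x, t) : E × ℝ)).eventually hZ
    filter_upwards [h2] with p hp using ⟨hp, mem_univ _⟩
  simp only [h1, map_zero]
  exact intervalIntegral.integral_zero

/-- **the homotopy formula for `τ`, with constant loops** -/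
theorem exists_hom (A C : ℝ) (hT : T ≠ 0) (hα : Form.pull Φ h.map α = pr α + dt)
    (hαo : α.sg = -α) {H : X × ℝ → Y} (hH : (D.prod (Dif.lin ℝ)).Map D' H) {F : Form D'}
    (hF : F.d = 0) (hFe : F.sg = F) (hFn : F ^ (2 + 1) = 0) {f₀ f₁ : X → Y}
    (hf₀ : D.Map D' f₀) (hf₁ : D.Map D' f₁) (h0 : ∀ x, H (x, 0) = f₀ x)
    (h1 : ∀ x, H (x, 1) = f₁ x) :
    ∃ κ : Form D, Basic Φ h.map κ ∧
      κ.d = tau A C Φ h.map T α (Form.pull f₁ hf₁ F) - tau A C Φ h.map T α (Form.pull f₀ hf₀ F) ∧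
      ∀ Z : Set X, (∀ x ∈ Z, ∀ t, Φ (x, t) ∈ Z) →
        (∀ x ∈ Z, ∀ t s, H (Φ (x, t), s) = H (x, s)) → Van Z κ := by
  obtain ⟨g1, g2, g3⟩ := pull_good hF hFe hFn hH
  obtain ⟨k1, k2⟩ := tau_homotopy h A C hT hα hαo g2 g1 g3
  have e0 : at_ 0 (Form.pull H hH F) = Form.pull f₀ hf₀ F :=
    (at_pull_of hH 0 F).trans (Form.pull_congr _ _ (funext h0) F)
  have e1 : at_ 1 (Form.pull H hH F) = Form.pull f₁ hf₁ F :=
    (at_pull_of hH 1 F).trans (Form.pull_congr _ _ (funext h1) F)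
  rw [e0, e1] at k2
  refine ⟨_, k1, k2, fun Z hinv hZ => Van.K ?_⟩
  exact van_tau (isFlow_cflow h) A C hH F (Z := Z ×ˢ (Set.univ : Set ℝ))
    (fun p hp t => ⟨hinv _ hp.1 t, mem_univ _⟩) fun p hp t => hZ _ hp.1 t p.2

end Hom

end Vale.Agent.P231.S3L
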